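import Vale.Agent.P040.H198.ArcDiag
import Vale.Agent.P040.Gen.ArcTools
import Vale.Agent.P040.Page.Cross

/-!
# Reading an arc along the spine

A continuous function with finitely many zeros is cut into pieces of alternating weak sign.
-/

namespace Vale.Agent.P040.Topo

open Set

/-- `y` is in the closed half-line `u`. -/
def Sgn (u : Bool) (y : ℝ) : Prop := if u = true then 0 ≤ y else y ≤ 0

/-- The page of piece `j`. -/
def pg (up : Bool) (j : ℕ) : Bool := if Even j then up else !up

theorem pg_zero (up : Bool) : pg up 0 = up := by simp [pg]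

theorem pg_succ (up : Bool) (j : ℕ) : pg up (j + 1) = !pg up j := by
  unfold pg
  by_cases h : Even j
  · rw [if_pos h, if_neg (by rw [Nat.even_add_one]; exact fun h' => h' h)]
  · rw [if_neg h, if_pos (by rw [Nat.even_add_one]; exact h), Bool.not_not]

theorem pg_not (up : Bool) (j : ℕ) : pg (!up) j = !pg up j := by
  unfold pg
  by_cases h : Even j
  · rw [if_pos h, if_pos h]
  · rw [if_neg h, if_neg h]

theorem sgn_zero (u : Bool) : Sgn u 0 := by
  unfold Sgn
  split_ifs <;> exact le_rfl

theorem sign_const {f : ℝ → ℝ} {a c : ℝ} (hac : a < c) (hc : ContinuousOn f (Icc a c))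
    (ha : f a = 0) (hc0 : f c = 0) (hne : ∀ x ∈ Ioo a c, f x ≠ 0) :
    ∃ u : Bool, ∀ x ∈ Icc a c, Sgn u (f x) := by
  have hm : (a + c) / 2 ∈ Ioo a c := ⟨by linarith, by linarith⟩
  have key : ∀ x ∈ Ioo a c, (0 < f ((a + c) / 2) → 0 < f x) ∧ (f ((a + c) / 2) < 0 → f x < 0) := by
    intro x hx
    have hsub : uIcc ((a + c) / 2) x ⊆ Ioo a c := by
      intro y hy
      rcases le_total ((a + c) / 2) x with h | h
      · rw [uIcc_of_le h] at hy
        exact ⟨lt_of_lt_of_le hm.1 hy.1, lt_of_le_of_lt hy.2 hx.2⟩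
      · rw [uIcc_of_ge h] at hy
        exact ⟨lt_of_lt_of_le hx.1 hy.1, lt_of_le_of_lt hy.2 hm.2⟩
    have hiv := intermediate_value_uIcc
      (hc.mono (hsub.trans Ioo_subset_Icc_self) : ContinuousOn f (uIcc ((a + c) / 2) x))
    constructor
    · intro h
      by_contra hlt
      rw [not_lt] at hlt
      have h0 : (0 : ℝ) ∈ uIcc (f ((a + c) / 2)) (f x) := by
        rw [uIcc_of_ge (hlt.trans h.le)]
        exact ⟨hlt, h.le⟩
      obtain ⟨y, hy, hy0⟩ := hiv h0
      exact hne y (hsub hy) hy0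
    · intro h
      by_contra hlt
      rw [not_lt] at hlt
      have h0 : (0 : ℝ) ∈ uIcc (f ((a + c) / 2)) (f x) := by
        rw [uIcc_of_le (h.le.trans hlt)]
        exact ⟨h.le, hlt⟩
      obtain ⟨y, hy, hy0⟩ := hiv h0
      exact hne y (hsub hy) hy0
  rcases lt_or_gt_of_ne (hne _ hm) with h | h
  · refine ⟨false, fun x hx => ?_⟩
    change f x ≤ 0
    rcases eq_or_lt_of_le hx.1 with h1 | h1
    · rw [← h1, ha]
    · rcases eq_or_lt_of_le hx.2 with h2 | h2
      · rw [h2, hc0]
      · exact ((key x ⟨h1, h2⟩).2 h).le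
  · refine ⟨true, fun x hx => ?_⟩
    change 0 ≤ f x
    rcases eq_or_lt_of_le hx.1 with h1 | h1
    · rw [← h1, ha]
    · rcases eq_or_lt_of_le hx.2 with h2 | h2
      · rw [h2, hc0]
      · exact ((key x ⟨h1, h2⟩).1 h).le

theorem exists_pieces {f : ℝ → ℝ} {b : ℝ} (hb0 : f b = 0) (N : ℕ) :
    ∀ a, a < b → ContinuousOn f (Icc a b) → f a = 0 → {t | t ∈ Ioo a b ∧ f t = 0}.Finite →
      {t | t ∈ Ioo a b ∧ f t = 0}.ncard ≤ N →
      ∃ (K : ℕ) (t : ℕ → ℝ) (up : Bool), 0 < K ∧ t 0 = a ∧ t K = b ∧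
        (∀ i < K, t i < t (i + 1)) ∧ (∀ i ≤ K, f (t i) = 0) ∧
        ∀ i < K, ∀ s ∈ Icc (t i) (t (i + 1)), Sgn (pg up i) (f s) := by
  induction N with
  | zero =>
    intro a hab hc ha hfin hcard
    have he : {t | t ∈ Ioo a b ∧ f t = 0} = ∅ := by
      rw [Nat.le_zero, Set.ncard_eq_zero hfin] at hcard
      exact hcard
    obtain ⟨u, hu⟩ := sign_const hab hc ha hb0 (fun x hx h0 => by
      have : x ∈ ({t | t ∈ Ioo a b ∧ f t = 0} : Set ℝ) := ⟨hx, h0⟩
      rw [he] at this
      exact this)
    refine ⟨1, fun i => if i = 0 then a else b, u, one_pos, rfl, rfl, ?_, ?_, ?_⟩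
    · intro i hi
      rw [Nat.lt_one_iff] at hi
      subst hi
      exact hab
    · intro i _
      dsimp only
      split_ifs
      · exact ha
      · exact hb0
    · intro i hi s hs
      rw [Nat.lt_one_iff] at hi
      subst hi
      rw [pg_zero]
      exact hu s hs
  | succ N ih =>
    intro a hab hc ha hfin hcard
    by_cases he : {t | t ∈ Ioo a b ∧ f t = 0} = ∅
    · obtain ⟨u, hu⟩ := sign_const hab hc ha hb0 (fun x hx h0 => by
        have : x ∈ ({t | t ∈ Ioo a b ∧ f t = 0} : Set ℝ) := ⟨hx, h0⟩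
        rw [he] at this
        exact this)
      refine ⟨1, fun i => if i = 0 then a else b, u, one_pos, rfl, rfl, ?_, ?_, ?_⟩
      · intro i hi
        rw [Nat.lt_one_iff] at hi
        subst hi
        exact hab
      · intro i _
        dsimp only
        split_ifs
        · exact ha
        · exact hb0
      · intro i hi s hs
        rw [Nat.lt_one_iff] at hi
        subst hi
        rw [pg_zero]
        exact hu s hs
    · obtain ⟨c, hcm, hmin⟩ := Set.exists_min_image _ id hfin (Set.nonempty_iff_ne_empty.2 he)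
      obtain ⟨⟨hac, hcb⟩, hc0⟩ := hcm
      have hcontL : ContinuousOn f (Icc a c) := hc.mono (Icc_subset_Icc le_rfl hcb.le)
      have hcontR : ContinuousOn f (Icc c b) := hc.mono (Icc_subset_Icc hac.le le_rfl)
      obtain ⟨u, hu⟩ := sign_const hac hcontL ha hc0 (fun x hx h0 => by
        have := hmin x ⟨⟨hx.1, hx.2.trans hcb⟩, h0⟩
        exact absurd hx.2 (not_lt.2 this))
      have hsub : {t | t ∈ Ioo c b ∧ f t = 0} ⊆ {t | t ∈ Ioo a b ∧ f t = 0} :=
        fun t ht => ⟨⟨hac.trans ht.1.1, ht.1.2⟩, ht.2⟩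
      have hss : {t | t ∈ Ioo c b ∧ f t = 0} ⊂ {t | t ∈ Ioo a b ∧ f t = 0} := by
        refine ⟨hsub, fun h => ?_⟩
        have : c ∈ ({t | t ∈ Ioo c b ∧ f t = 0} : Set ℝ) := h ⟨⟨hac, hcb⟩, hc0⟩
        exact lt_irrefl _ this.1.1
      have hcard' : {t | t ∈ Ioo c b ∧ f t = 0}.ncard ≤ N := by
        have := Set.ncard_lt_ncard hss hfin
        omega
      obtain ⟨K, t, up, hK, ht0, htK, hlt, hz, hs⟩ :=
        ih c hcb hcontR hc0 (hfin.subset hsub) hcard'
      by_cases huu : u = up
      · subst huu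
        refine ⟨K, fun i => if i = 0 then a else t i, u, hK, rfl, ?_, ?_, ?_, ?_⟩
        · dsimp only
          rw [if_neg hK.ne', htK]
        · intro i hi
          dsimp only
          rw [if_neg (Nat.succ_ne_zero i)]
          split_ifs with h
          · subst h
            have := hlt 0 hi
            rw [ht0] at this
            exact hac.trans this
          · exact hlt i hi
        · intro i hi
          dsimp only
          split_ifs with h
          · exact ha
          · exact hz i hi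
        · intro i hi s hs'
          dsimp only at hs'
          rw [if_neg (Nat.succ_ne_zero i)] at hs'
          split_ifs at hs' with h
          · subst h
            rcases le_total s c with h1 | h1
            · rw [pg_zero]
              exact hu s ⟨hs'.1, h1⟩
            · exact hs 0 hi s ⟨by rw [ht0]; exact h1, hs'.2⟩
          · exact hs i hi s hs'
      · have hup : up = !u := by
          cases u <;> cases up <;> simp_all
        subst hup
        refine ⟨K + 1, fun i => if i = 0 then a else t (i - 1), u, Nat.succ_pos K, rfl, ?_, ?_,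
          ?_, ?_⟩
        · dsimp only
          rw [if_neg (Nat.succ_ne_zero K), Nat.add_sub_cancel, htK]
        · intro i hi
          dsimp only
          rw [if_neg (Nat.succ_ne_zero i), Nat.add_sub_cancel]
          split_ifs with h
          · subst h
            rw [ht0]
            exact hac
          · obtain ⟨j, rfl⟩ := Nat.exists_eq_succ_of_ne_zero h
            rw [Nat.succ_sub_one]
            exact hlt j (by omega)
        · intro i hi
          dsimp only
          split_ifs with h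
          · exact ha
          · exact hz _ (by omega)
        · intro i hi s hs'
          dsimp only at hs'
          rw [if_neg (Nat.succ_ne_zero i), Nat.add_sub_cancel] at hs'
          split_ifs at hs' with h
          · subst h
            rw [ht0] at hs'
            rw [pg_zero]
            exact hu s hs'
          · obtain ⟨j, rfl⟩ := Nat.exists_eq_succ_of_ne_zero h
            rw [Nat.succ_sub_one] at hs'
            have := hs j (by omega) s hs'
            rw [Nat.succ_eq_add_one, pg_succ, ← pg_not]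
            exact this

/-- A reading of the arc `S` along the spine. -/
structure Reading (S : Set Plane) (A : Arm) where
  γ : ℝ → Plane
  t : ℕ → ℝ
  cont : ContinuousOn γ (Icc 0 1)
  inj : InjOn γ (Icc 0 1)
  img : γ '' Icc 0 1 = S
  t_zero : t 0 = 0
  t_len : t A.len = 1
  t_lt : ∀ i < A.len, t i < t (i + 1)
  γ_t : ∀ i ≤ A.len, γ (t i) = (A.p i, 0)
  sgn : ∀ i < A.len, ∀ s ∈ Icc (t i) (t (i + 1)), Sgn (A.page i) (γ s).2

theorem exists_reading {S : Set Plane} {c l : ℝ} (hS : IsArc S (c, 0) (l, 0))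
    (hfin : {w | w ∈ S ∧ w.2 = 0}.Finite) :
    ∃ A : Arm, A.p 0 = c ∧ A.p A.len = l ∧ Nonempty (Reading S A) := by
  obtain ⟨γ, hc, hi, h0, h1, himg⟩ := hS
  have hf : ContinuousOn (fun s => (γ s).2) (Icc (0 : ℝ) 1) := continuous_snd.comp_continuousOn hc
  have hfin' : {t | t ∈ Ioo (0 : ℝ) 1 ∧ (γ t).2 = 0}.Finite := by
    refine Set.Finite.of_finite_image (f := γ) (hfin.subset ?_) (hi.mono fun t ht =>
      Ioo_subset_Icc_self ht.1)
    rintro _ ⟨t, ht, rfl⟩
    exact ⟨himg ▸ mem_image_of_mem γ (Ioo_subset_Icc_self ht.1), ht.2⟩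
  obtain ⟨K, t, up, hK, ht0, htK, hlt, hz, hs⟩ :=
    exists_pieces (f := fun s => (γ s).2) (b := 1) (by rw [h1]) _ 0 one_pos hf (by rw [h0]) hfin'
      le_rfl
  refine ⟨⟨K, hK, fun i => (γ (t i)).1, up⟩, ?_, ?_, ⟨⟨γ, t, hc, hi, himg, ht0, htK, hlt, ?_, ?_⟩⟩⟩
  · change (γ (t 0)).1 = c
    rw [ht0, h0]
  · change (γ (t K)).1 = l
    rw [htK, h1]
  · intro i hi'
    exact Prod.ext rfl (hz i hi')
  · exact hs

namespace Reading

variable {S : Set Plane} {A : Arm} (R : Reading S A)
include R

theorem t_lt_t {i j : ℕ} (hij : i < j) (hj : j ≤ A.len) : R.t i < R.t j := by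
  induction j with
  | zero => omega
  | succ j ih =>
    rcases Nat.lt_or_ge i j with h | h
    · exact (ih h (by omega)).trans (R.t_lt j (by omega))
    · have : i = j := by omega
      subst this
      exact R.t_lt i (by omega)

theorem t_le_t {i j : ℕ} (hij : i ≤ j) (hj : j ≤ A.len) : R.t i ≤ R.t j := by
  rcases Nat.eq_or_lt_of_le hij with h | h
  · rw [h]
  · exact (R.t_lt_t h hj).le

theorem t_mem {i : ℕ} (hi : i ≤ A.len) : R.t i ∈ Icc (0 : ℝ) 1 := by
  constructor
  · rw [← R.t_zero]
    exact R.t_le_t (Nat.zero_le i) hi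
  · rw [← R.t_len]
    exact R.t_le_t hi le_rfl

theorem sub {i : ℕ} (hi : i < A.len) : Icc (R.t i) (R.t (i + 1)) ⊆ Icc (0 : ℝ) 1 :=
  Icc_subset_Icc (R.t_mem hi.le).1 (R.t_mem hi).2

/-- The piece `i` of the arc. -/
def piece (i : ℕ) : Set Plane := R.γ '' Icc (R.t i) (R.t (i + 1))

theorem piece_sub {i : ℕ} (hi : i < A.len) : R.piece i ⊆ S := by
  conv_rhs => rw [← R.img]
  exact image_mono (R.sub hi)

theorem isArc {i : ℕ} (hi : i < A.len) : IsArc (R.piece i) (A.p i, 0) (A.p (i + 1), 0) := by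
  rw [← R.γ_t i hi.le, ← R.γ_t (i + 1) hi]
  exact Unc.isArc_image (R.t_lt i hi) (R.cont.mono (R.sub hi)) (R.inj.mono (R.sub hi))

theorem piece_sgn {i : ℕ} (hi : i < A.len) {w : Plane} (hw : w ∈ R.piece i) :
    Sgn (A.page i) w.2 := by
  obtain ⟨s, hs, rfl⟩ := hw
  exact R.sgn i hi s hs

/-- a point of the piece `i` has its parameter in the piece -/
theorem param {i : ℕ} (hi : i < A.len) {s : ℝ} (hs : s ∈ Icc (0 : ℝ) 1)
    (hw : R.γ s ∈ R.piece i) : s ∈ Icc (R.t i) (R.t (i + 1)) := by
  obtain ⟨s', hs', h⟩ := hw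
  rw [← R.inj (R.sub hi hs') hs h]
  exact hs'

/-- a common point of two pieces -/
theorem common {i j : ℕ} (hij : i < j) (hj : j < A.len) {w : Plane} (hw : w ∈ R.piece i)
    (hw' : w ∈ R.piece j) : j = i + 1 ∧ w.2 = 0 := by
  obtain ⟨s, hs, rfl⟩ := hw
  have hi : i < A.len := hij.trans hj
  have hs' := R.param hj (R.sub hi hs) hw'
  have h1 : R.t (i + 1) ≤ R.t j := R.t_le_t hij hj.le
  have h2 : s = R.t j := le_antisymm (hs.2.trans h1) hs'.1
  refine ⟨?_, ?_⟩
  · by_contra hne
    have h3 : R.t (i + 1) < R.t j := R.t_lt_t (by omega) hj.le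
    exact absurd hs.2 (not_le.2 (by rw [h2]; exact h3))
  · rw [h2, R.γ_t j hj.le]

theorem piece_inj {i j : ℕ} (hi : i < A.len) (hj : j < A.len) {w : Plane} (hw : w ∈ R.piece i)
    (hw' : w ∈ R.piece j) (h0 : w.2 ≠ 0) : i = j := by
  rcases Nat.lt_trichotomy i j with h | h | h
  · exact absurd (R.common h hj hw hw').2 h0
  · exact h
  · exact absurd (R.common h hi hw' hw).2 h0

theorem first {i : ℕ} (hi : i < A.len) (h : ((A.p 0, 0) : Plane) ∈ R.piece i) : i = 0 := by
  rw [← R.γ_t 0 (Nat.zero_le _)] at h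
  have := R.param hi (R.t_mem (Nat.zero_le _)) h
  by_contra hne
  exact absurd this.1 (not_le.2 (R.t_lt_t (Nat.pos_of_ne_zero hne) hi.le))

theorem last {i : ℕ} (hi : i < A.len) (h : ((A.p A.len, 0) : Plane) ∈ R.piece i) :
    i + 1 = A.len := by
  rw [← R.γ_t _ le_rfl] at h
  have := R.param hi (R.t_mem le_rfl) h
  by_contra hne
  exact absurd this.2 (not_le.2 (R.t_lt_t (by omega : i + 1 < A.len) le_rfl))

theorem p_mem {i : ℕ} (hi : i ≤ A.len) : ((A.p i, 0) : Plane) ∈ S := by
  rw [← R.γ_t i hi]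
  have h := mem_image_of_mem R.γ (R.t_mem hi)
  rwa [R.img] at h

theorem p_inj {i j : ℕ} (hi : i ≤ A.len) (hj : j ≤ A.len) (h : A.p i = A.p j) : i = j := by
  have h1 : R.γ (R.t i) = R.γ (R.t j) := by rw [R.γ_t i hi, R.γ_t j hj, h]
  have h2 := R.inj (R.t_mem hi) (R.t_mem hj) h1
  rcases Nat.lt_trichotomy i j with h | h | h
  · exact absurd h2 (R.t_lt_t h hj).ne
  · exact h
  · exact absurd h2 (R.t_lt_t h hi).ne'

end Reading

/-- Interleaving arcs in a common page meet. -/
theorem inter_meet {S T : Set Plane} {a b c d : ℝ} (hS : IsArc S (a, 0) (b, 0))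
    (hT : IsArc T (c, 0) (d, 0)) (hI : Inter a b c d) {u : Bool} (hs : ∀ w ∈ S, Sgn u w.2)
    (ht : ∀ w ∈ T, Sgn u w.2) : (S ∩ T).Nonempty := by
  have key : ∀ {S T : Set Plane} {a b c d : ℝ}, IsArc S (a, 0) (b, 0) → IsArc T (c, 0) (d, 0) →
      (∀ w ∈ S, Sgn u w.2) → (∀ w ∈ T, Sgn u w.2) → a < c → c < b → b < d →
      (S ∩ T).Nonempty := by
    intro S T a b c d hS hT hs ht h1 h2 h3
    refine Page.arcs_meet hS hT rfl rfl rfl rfl h1 h2 h3 ?_
    cases u
    · exact Or.inr ⟨hs, ht⟩
    · exact Or.inl ⟨hs, ht⟩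
  have key2 : ∀ {S T : Set Plane} {a b c d : ℝ}, IsArc S (a, 0) (b, 0) → IsArc T (c, 0) (d, 0) →
      (∀ w ∈ S, Sgn u w.2) → (∀ w ∈ T, Sgn u w.2) →
      min a b < min c d → min c d < max a b → max a b < max c d → (S ∩ T).Nonempty := by
    intro S T a b c d hS hT hs ht h1 h2 h3
    rcases le_total a b with hab | hab <;> rcases le_total c d with hcd | hcd
    · rw [min_eq_left hab, min_eq_left hcd] at h1
      rw [min_eq_left hcd, max_eq_right hab] at h2
      rw [max_eq_right hab, max_eq_right hcd] at h3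
      exact key hS hT hs ht h1 h2 h3
    · rw [min_eq_left hab, min_eq_right hcd] at h1
      rw [min_eq_right hcd, max_eq_right hab] at h2
      rw [max_eq_right hab, max_eq_left hcd] at h3
      exact key hS hT.symm hs ht h1 h2 h3
    · rw [min_eq_right hab, min_eq_left hcd] at h1
      rw [min_eq_left hcd, max_eq_left hab] at h2
      rw [max_eq_left hab, max_eq_right hcd] at h3
      exact key hS.symm hT hs ht h1 h2 h3
    · rw [min_eq_right hab, min_eq_right hcd] at h1
      rw [min_eq_right hcd, max_eq_left hab] at h2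
      rw [max_eq_left hab, max_eq_left hcd] at h3
      exact key hS.symm hT.symm hs ht h1 h2 h3
  rcases hI with ⟨h1, h2, h3⟩ | ⟨h1, h2, h3⟩
  · exact key2 hS hT hs ht h1 h2 h3
  · rw [inter_comm]
    exact key2 hT hS ht hs h1 h2 h3

theorem not_inter_self (a b : ℝ) : ¬ Inter a b a b := by
  rintro (⟨h, -, -⟩ | ⟨h, -, -⟩) <;> exact lt_irrefl _ h

theorem not_inter_left (c a b : ℝ) : ¬ Inter c a c b := by
  have key : ∀ a b : ℝ, ¬ (min c a < min c b ∧ min c b < max c a ∧ max c a < max c b) := by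
    rintro a b ⟨h1, h2, h3⟩
    rcases le_total c a with h | h
    · rw [min_eq_left h] at h1
      exact absurd h1 (not_lt.2 (min_le_left _ _))
    · rw [max_eq_left h] at h2 h3
      have hcb : c ≤ b := by
        by_contra hlt
        rw [max_eq_left (not_le.1 hlt).le] at h3
        exact lt_irrefl _ h3
      rw [min_eq_left hcb] at h2
      exact lt_irrefl _ h2
  rintro (h | h)
  · exact key a b h
  · exact key b a h

theorem inter_swap {a b c d : ℝ} (h : Inter a b c d) : Inter b a d c := by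
  unfold Inter at *
  rw [min_comm b a, min_comm d c, max_comm b a, max_comm d c]
  exact h

theorem not_inter_right (c a b : ℝ) : ¬ Inter a c b c := fun h =>
  not_inter_left c a b (inter_swap h)

/-- Pieces which hit have a common point. -/
theorem hit_meet {S T : Set Plane} {A B : Arm} (R : Reading S A) (Q : Reading T B) {i j : ℕ}
    (hi : i < A.len) (hj : j < B.len) (h : A.Hit B i j) : (R.piece i ∩ Q.piece j).Nonempty := by
  refine inter_meet (R.isArc hi) (Q.isArc hj) h.2 (u := A.page i) (fun w => R.piece_sgn hi) ?_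
  rw [h.1]
  exact fun w => Q.piece_sgn hj

theorem no_self_hit {S : Set Plane} {A : Arm} (R : Reading S A) {i j : ℕ}
    (hi : i < A.len) (hj : j < A.len) : ¬ A.Hit A i j := by
  intro h
  have hpage : ∀ k, A.page (k + 1) ≠ A.page k := by
    intro k
    have : A.page (k + 1) = !A.page k := pg_succ A.up k
    rw [this]
    cases A.page k <;> simp
  obtain ⟨w, hw, hw'⟩ := hit_meet R R hi hj h
  rcases Nat.lt_trichotomy i j with hlt | heq | hlt
  · have := (R.common hlt hj hw hw').1
    subst this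
    exact hpage i h.1.symm
  · subst heq
    exact not_inter_self _ _ h.2
  · have := (R.common hlt hi hw' hw).1
    subst this
    exact hpage j h.1

end Vale.Agent.P040.Topo
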