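import Vale.Agent.P040.H198.Targets
import Vale.Agent.P040.H709.Pieces

/-!
# T3: the arc diagram of a drawing with its vertices on the spine
-/

namespace Vale.Agent.P040.Topo

open Set

theorem read : ReadStatement := by
  classical
  intro m n S leaf ctr C hleaf hctr hlc hS hfin hCfin hCne hstar hlf hcr huniq
  have hread := fun x b => exists_reading (hS x b) (hfin x b)
  choose A hA0 hAl hR using hread
  let R : ∀ x b, Reading (S x b) (A x b) := fun x b => (hR x b).some
  have hinj : ∀ x b i y k j, i ≤ (A x b).len → j ≤ (A y k).len → (A x b).p i = (A y k).p j →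
      (x = y ∧ b = k ∧ i = j) ∨ (b = k ∧ i = 0 ∧ j = 0) ∨
        (x = y ∧ i = (A x b).len ∧ j = (A y k).len) := by
    intro x b i y k j hi hj h
    have h1 := (R x b).p_mem hi
    have h2 := (R y k).p_mem hj
    rw [← h] at h2
    by_cases hxy : x = y
    · subst hxy
      by_cases hbk : b = k
      · subst hbk
        exact Or.inl ⟨rfl, rfl, (R x b).p_inj hi hj h⟩
      · right; right
        have h3 := hlf x b k hbk _ h1 h2
        have h4 : (A x b).p i = leaf x := congrArg Prod.fst h3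
        refine ⟨rfl, ?_, ?_⟩
        · exact (R x b).p_inj hi le_rfl (h4.trans (hAl x b).symm)
        · exact (R x k).p_inj hj le_rfl ((h.symm.trans h4).trans (hAl x k).symm)
    · by_cases hbk : b = k
      · subst hbk
        right; left
        have h3 := hstar x y b hxy _ h1 h2
        have h4 : (A x b).p i = ctr b := congrArg Prod.fst h3
        refine ⟨rfl, ?_, ?_⟩
        · exact (R x b).p_inj hi (Nat.zero_le _) (h4.trans (hA0 x b).symm)
        · exact (R y b).p_inj hj (Nat.zero_le _) ((h.symm.trans h4).trans (hA0 y b).symm)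
      · exact absurd rfl (hCne _ (hcr x y b k hxy hbk _ h1 h2))
  have hnc : ∀ x b i y k j, (x = y ∨ b = k) → i < (A x b).len → j < (A y k).len →
      ¬ (A x b).Hit (A y k) i j := by
    intro x b i y k j hor hi hj hH
    by_cases hxy : x = y
    · subst hxy
      by_cases hbk : b = k
      · subst hbk
        exact no_self_hit (R x b) hi hj hH
      · obtain ⟨w, hw, hw'⟩ := hit_meet (R x b) (R x k) hi hj hH
        have h3 := hlf x b k hbk w ((R x b).piece_sub hi hw) ((R x k).piece_sub hj hw')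
        subst h3
        rw [← hAl x b] at hw
        rw [← hAl x k] at hw'
        have hi' := (R x b).last hi hw
        have hj' := (R x k).last hj hw'
        have h4 := hH.2
        rw [hi', hj', hAl, hAl] at h4
        exact not_inter_right _ _ _ h4
    · have hbk : b = k := hor.resolve_left hxy
      subst hbk
      obtain ⟨w, hw, hw'⟩ := hit_meet (R x b) (R y b) hi hj hH
      have h3 := hstar x y b hxy w ((R x b).piece_sub hi hw) ((R y b).piece_sub hj hw')
      subst h3
      rw [← hA0 x b] at hw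
      rw [← hA0 y b] at hw'
      have hi' := (R x b).first hi hw
      have hj' := (R y b).first hj hw'
      subst hi'
      subst hj'
      have h4 := hH.2
      rw [hA0, hA0] at h4
      exact not_inter_left _ _ _ h4
  let AD : ArcDiagram m n := ⟨leaf, ctr, A, hleaf, hctr, hlc, hA0, hAl, hinj, hnc⟩
  refine ⟨AD, rfl, rfl, ?_⟩
  -- the crossing points of a pair of arms
  have hpt : ∀ x b y k i j, i < (A x b).len → j < (A y k).len → (A x b).Hit (A y k) i j →
      ∃ w, w ∈ (R x b).piece i ∧ w ∈ (R y k).piece j := by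
    intro x b y k i j hi hj hH
    obtain ⟨w, hw, hw'⟩ := hit_meet (R x b) (R y k) hi hj hH
    exact ⟨w, hw, hw'⟩
  let H : (Fin n × Fin n × Fin m × Fin m) → Finset (ℕ × ℕ) := fun q =>
    (Finset.range (A q.2.2.1 q.1).len ×ˢ Finset.range (A q.2.2.2 q.2.1).len).filter
      fun r => (A q.2.2.1 q.1).Hit (A q.2.2.2 q.2.1) r.1 r.2
  let I : Finset (Fin n × Fin n × Fin m × Fin m) := Finset.univ.filter fun q => q.1 < q.2.1
  have htot : AD.total = (I.sigma H).card := by
    rw [Finset.card_sigma, Finset.sum_filter]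
    simp only [Fintype.sum_prod_type]
    refine Finset.sum_congr rfl fun b _ => ?_
    rw [Finset.sum_filter]
    refine Finset.sum_congr rfl fun k _ => ?_
    split_ifs with h
    · rfl
    · simp
  have hmem : ∀ s ∈ I.sigma H, s.1.1 < s.1.2.1 ∧ s.2.1 < (A s.1.2.2.1 s.1.1).len ∧
      s.2.2 < (A s.1.2.2.2 s.1.2.1).len ∧
      (A s.1.2.2.1 s.1.1).Hit (A s.1.2.2.2 s.1.2.1) s.2.1 s.2.2 := by
    intro s hs
    rw [Finset.mem_sigma] at hs
    obtain ⟨h1, h2⟩ := hs
    rw [Finset.mem_filter] at h1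
    rw [Finset.mem_filter, Finset.mem_product, Finset.mem_range, Finset.mem_range] at h2
    exact ⟨h1.2, h2.1.1, h2.1.2, h2.2⟩
  have hex : ∀ s : (_ : Fin n × Fin n × Fin m × Fin m) × (ℕ × ℕ), ∃ w : Plane,
      s ∈ I.sigma H → w ∈ (R s.1.2.2.1 s.1.1).piece s.2.1 ∧
        w ∈ (R s.1.2.2.2 s.1.2.1).piece s.2.2 := by
    intro s
    by_cases hs : s ∈ I.sigma H
    · obtain ⟨h1, h2, h3, h4⟩ := hmem s hs
      obtain ⟨w, hw⟩ := hpt _ _ _ _ _ _ h2 h3 h4
      exact ⟨w, fun _ => hw⟩
    · exact ⟨(0, 0), fun h => absurd h hs⟩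
  choose pt hptm using hex
  have hptC : ∀ s ∈ I.sigma H, pt s ∈ C := by
    intro s hs
    obtain ⟨h1, h2, h3, h4⟩ := hmem s hs
    obtain ⟨hw, hw'⟩ := hptm s hs
    have hbk : s.1.1 ≠ s.1.2.1 := h1.ne
    have hxy : s.1.2.2.1 ≠ s.1.2.2.2 := fun h => hnc _ _ _ _ _ _ (Or.inl h) h2 h3 h4
    exact hcr _ _ _ _ hxy hbk _ ((R _ _).piece_sub h2 hw) ((R _ _).piece_sub h3 hw')
  rw [htot]
  have hinj' : Set.InjOn pt (I.sigma H : Finset _) := by
    rintro ⟨⟨b, k, x, y⟩, i, j⟩ hs ⟨⟨b', k', x', y'⟩, i', j'⟩ hs' heq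
    have hs1 := hmem _ hs
    have hs1' := hmem _ hs'
    have hw := hptm _ hs
    have hw' := hptm _ hs'
    have hC := hptC _ hs
    rw [← heq] at hw'
    dsimp only at hs1 hs1' hw hw'
    obtain ⟨h1, h2, h3, h4⟩ := hs1
    obtain ⟨h1', h2', h3', h4'⟩ := hs1'
    obtain ⟨e1, e2, e3, e4⟩ := huniq _ hC x y b k x' y' b' k' h1 h1'
      ((R _ _).piece_sub h2 hw.1) ((R _ _).piece_sub h3 hw.2)
      ((R _ _).piece_sub h2' hw'.1) ((R _ _).piece_sub h3' hw'.2)
    subst e1 e2 e3 e4
    have hi := (R x b).piece_inj h2 h2' hw.1 hw'.1 (hCne _ hC)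
    have hj := (R y k).piece_inj h3 h3' hw.2 hw'.2 (hCne _ hC)
    rw [hi, hj]
  rw [Set.ncard_eq_toFinset_card C hCfin]
  exact Finset.card_le_card_of_injOn pt (fun s hs => by
    have := hptC s hs
    simpa using this) hinj'

end Vale.Agent.P040.Topo
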