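import Vale.Agent.P040.H84.ValDef

/-!
# P040: integrality of the values

If the cumulative masses are integers and the mass `2 * M` of a hemisphere is an integer, then the
phases of two points of the same colour differ by an integer, those of two points of different
colours by an integer plus `M`; hence `2 * v` is an integer plus `M` for every value `v`.
-/

namespace Vale.Agent.P040.H709

open P040H251 Vale.Agent.P040.H906 Vale.Agent.P040.H84

/-- the phases of a curve with integral masses -/
theorem crv_lat {α : Type*} [LinearOrder α] [Inhabited α] {D : Dat α} {s : Bool} {L : List α}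
    {E : α → ℝ} (h : Crv D s L E) (hC : ∀ b j, ∃ n : ℤ, D.C b j = n) {k : ℤ}
    (hM : 2 * D.M = k) {col : α → Bool} (hcol : ColOK col (cfg s L)) {r : α} (hr : r ∈ L) :
    ∀ x ∈ L, ∃ n : ℤ, E x - E r = n + (if col x = col r then 0 else D.M) := by
  classical
  have hg := h.good
  have key : ((cfg s L).S.filter fun x => ∃ n : ℤ, E x - E r =
      n + (if col x = col r then 0 else D.M)) = (cfg s L).S := by
    refine hg.conn _ (Finset.filter_subset _ _) ⟨r, ?_⟩ ?_
    · rw [Finset.mem_filter]
      refine ⟨by simpa using hr, 0, ?_⟩
      simp
    · intro b x hx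
      rw [Finset.mem_filter] at hx ⊢
      obtain ⟨hxS, n, hn⟩ := hx
      refine ⟨hg.mem b x hxS, ?_⟩
      have hxL : x ∈ L := by simpa using hxS
      have hinc := h.inc b x hxL
      obtain ⟨n1, hn1⟩ := hC b (D.lab (fO s L b x))
      obtain ⟨n2, hn2⟩ := hC b (D.lab x)
      rw [hn1, hn2] at hinc
      have hc := hcol b x hxS
      rw [cfg_f] at hc ⊢
      have h1 : E (fO s L b x) - E x =
          sg b * ((n1 : ℝ) - n2 + (if x < fO s L b x then - D.M else D.M)) := by
        rw [← hinc, ← mul_assoc, Vale.Agent.P040.H906.sg_sq, one_mul]
      have h2 : ∃ m : ℤ, E (fO s L b x) - E x = m + D.M := by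
        rw [h1]
        have h3 : D.M = k - D.M := by linarith
        cases b
        · split_ifs
          · refine ⟨n2 - n1, ?_⟩
            simp only [sg]
            push_cast
            norm_num
            ring
          · refine ⟨n2 - n1 - k, ?_⟩
            simp only [sg]
            push_cast
            norm_num
            linarith
        · split_ifs
          · refine ⟨n1 - n2 - k, ?_⟩
            simp only [sg]
            push_cast
            norm_num
            linarith
          · refine ⟨n1 - n2, ?_⟩
            simp only [sg]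
            push_cast
            norm_num
      obtain ⟨m, hm⟩ := h2
      by_cases hx1 : col x = col r
      · rw [if_pos hx1] at hn
        have hx2 : ¬ col (fO s L b x) = col r := by
          rw [hc, hx1]; cases col r <;> decide
        rw [if_neg hx2]
        refine ⟨n + m, ?_⟩
        push_cast
        linarith
      · rw [if_neg hx1] at hn
        have hx2 : col (fO s L b x) = col r := by
          rw [hc]
          revert hx1
          cases col x <;> cases col r <;> decide
        rw [if_pos hx2]
        refine ⟨n + m + k, ?_⟩
        push_cast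
        linarith
  intro x hx
  have : x ∈ (cfg s L).S := by simpa using hx
  rw [← key, Finset.mem_filter] at this
  exact this.2

/-- twice a value is an integer plus `M` -/
theorem sel_lat {α : Type*} [LinearOrder α] [Inhabited α] {D : Dat α} {s : Bool} {L : List α}
    {E : α → ℝ} (h : Crv D s L E) (hC : ∀ b j, ∃ n : ℤ, D.C b j = n) {k : ℤ}
    (hM : 2 * D.M = k) {r : α} (hr : r ∈ L) :
    ∃ n : ℤ, 2 * (selApi.val s L E - E r) = n + D.M := by
  have hg := h.good
  have hv := h.valid
  obtain ⟨col, hcol⟩ := exists_col' hg hv
  have hs : selApi.val s L E = (vt col (cfg s L) E + vt (fun x => !col x) (cfg s L) E) / 2 :=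
    selv_eq hg hcol hv
  obtain ⟨a, ha⟩ := exists_out' hg hcol hv
  obtain ⟨a', ha'⟩ := exists_out' hg (ColOK.neg hcol) hv
  rw [hs, vt_eq hg hcol ha, vt_eq hg (ColOK.neg hcol) ha']
  obtain ⟨n, hn⟩ := crv_lat h hC hM hcol hr a (by simpa using ha.mem)
  obtain ⟨n', hn'⟩ := crv_lat h hC hM hcol hr a' (by simpa using ha'.mem)
  have h1 : col a = true := ha.col
  have h2 : col a' = false := by
    have : (!col a') = true := ha'.col
    revert this
    cases col a' <;> decide
  refine ⟨n + n', ?_⟩
  rw [h1] at hn
  rw [h2] at hn'
  push_cast
  cases hcr : col r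
  · rw [hcr] at hn hn'
    simp only [Bool.true_eq_false, if_false, if_true] at hn hn'
    linarith
  · rw [hcr] at hn hn'
    simp only [Bool.false_eq_true, if_false, if_true] at hn hn'
    linarith

/-- **Integrality.** Twice a value is an integer plus `h / 2`. -/
theorem val_lat {h : ℕ} {P : LData h} {z : Fin (2 * h)} {R : FreeGroup ℕ} {v : ℝ}
    (hv : P.Val z R v) : ∃ n : ℤ, 2 * v = n + (h : ℝ) / 2 := by
  obtain ⟨r, l, L, E, hC, _, _, rfl⟩ := hv
  have := sel_lat hC (k := (h : ℤ)) (fun b j => ⟨(P.cnt b j : ℤ), by
    show (P.cnt b j : ℝ) = _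
    push_cast
    rfl⟩) (by
    show 2 * ((h : ℝ) / 2) = _
    push_cast
    ring) (r := r) (by simp)
  exact this

end Vale.Agent.P040.H709
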