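import Vale.Agent.P040.H251.Plus
import Vale.Agent.P040.H682.OData

/-!
# P040, odd layer: the values lie in a lattice (helper709)

If the cumulative masses and the mass `2 * M` of a hemisphere are in `δ ℤ`, then the phases of two
points of the same colour differ by an element of `δ ℤ`, those of two points of different
colours by an element of `δ ℤ` plus `M`.
-/

set_option linter.unusedSectionVars false

namespace Vale.Agent.P040.H709

open P040H251 Vale.Agent.P040.H906

/-- the phases of a curve with masses in `δ ℤ` -/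
theorem crv_latd {α : Type*} [LinearOrder α] [Inhabited α] {D : Dat α} {s : Bool} {L : List α}
    {E : α → ℝ} (h : Crv D s L E) {δ : ℝ} (hC : ∀ b j, ∃ n : ℤ, D.C b j = n * δ) {k : ℤ}
    (hM : 2 * D.M = k * δ) {col : α → Bool} (hcol : ColOK col (cfg s L)) {r : α} (hr : r ∈ L) :
    ∀ x ∈ L, ∃ n : ℤ, E x - E r = n * δ + (if col x = col r then 0 else D.M) := by
  classical
  have hg := h.good
  have key : ((cfg s L).S.filter fun x => ∃ n : ℤ, E x - E r =
      n * δ + (if col x = col r then 0 else D.M)) = (cfg s L).S := by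
    refine hg.conn _ (Finset.filter_subset _ _) ⟨r, ?_⟩ ?_
    · rw [Finset.mem_filter]
      refine ⟨by simpa using hr, 0, ?_⟩
      simp
    · intro b x hx
      rw [Finset.mem_filter] at hx ⊢
      obtain ⟨hxS, n, hn⟩ := hx
      refine ⟨hg.mem b x hxS, ?_⟩
      have hxL : x ∈ L := by simpa using hxS
      have hinc := h.inc b x hxL
      obtain ⟨n1, hn1⟩ := hC b (D.lab (fO s L b x))
      obtain ⟨n2, hn2⟩ := hC b (D.lab x)
      rw [hn1, hn2] at hinc
      have hc := hcol b x hxS
      rw [cfg_f] at hc ⊢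
      have h1 : E (fO s L b x) - E x =
          sg b * ((n1 : ℝ) * δ - n2 * δ + (if x < fO s L b x then - D.M else D.M)) := by
        rw [← hinc, ← mul_assoc, Vale.Agent.P040.H906.sg_sq, one_mul]
      have h2 : ∃ m : ℤ, E (fO s L b x) - E x = m * δ + D.M := by
        rw [h1]
        cases b
        · split_ifs
          · refine ⟨n2 - n1, ?_⟩
            simp only [sg]
            push_cast
            norm_num
            ring
          · refine ⟨n2 - n1 - k, ?_⟩
            simp only [sg]
            push_cast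
            norm_num
            linarith
        · split_ifs
          · refine ⟨n1 - n2 - k, ?_⟩
            simp only [sg]
            push_cast
            norm_num
            linarith
          · refine ⟨n1 - n2, ?_⟩
            simp only [sg]
            push_cast
            norm_num
            ring
      obtain ⟨m, hm⟩ := h2
      by_cases hx1 : col x = col r
      · rw [if_pos hx1] at hn
        have hx2 : ¬ col (fO s L b x) = col r := by
          rw [hc, hx1]; cases col r <;> decide
        rw [if_neg hx2]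
        refine ⟨n + m, ?_⟩
        push_cast
        linarith
      · rw [if_neg hx1] at hn
        have hx2 : col (fO s L b x) = col r := by
          rw [hc]
          revert hx1
          cases col x <;> cases col r <;> decide
        rw [if_pos hx2]
        refine ⟨n + m + k, ?_⟩
        push_cast
        linarith
  intro x hx
  have : x ∈ (cfg s L).S := by simpa using hx
  rw [← key, Finset.mem_filter] at this
  exact this.2

section head

variable {α : Type*} [LinearOrder α] [Inhabited α] {D : Dat α} {s : Bool} {r : α} {L : List α}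
  {E : α → ℝ} {δ : ℝ} {k : ℤ}

theorem upc_head : upc s (r :: L) r = s := by
  have h0 : (r :: L).idxOf r = 0 := by simp
  unfold upc
  rw [h0]
  unfold pgk
  simp

/-- the value at the surviving crossing of the colour of the head -/
theorem val_lat_same (h : Crv D s (r :: L) E) (hC : ∀ b j, ∃ n : ℤ, D.C b j = n * δ)
    (hM : 2 * D.M = k * δ) {i : ℕ} (hi : i < (r :: L).length) (hp : pgk s i = s) :
    ∃ n : ℤ, E (g (r :: L) i) - E r = n * δ := by
  obtain ⟨n, hn⟩ := crv_latd h hC hM (colOK_upc h.cl s) (r := r) (by simp) (g (r :: L) i)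
    (g_mem hi)
  rw [upc_g h.cl.nodup hi, upc_head, hp, if_pos rfl] at hn
  exact ⟨n, by linarith⟩

theorem val_lat_diff (h : Crv D s (r :: L) E) (hC : ∀ b j, ∃ n : ℤ, D.C b j = n * δ)
    (hM : 2 * D.M = k * δ) {i : ℕ} (hi : i < (r :: L).length) (hp : pgk s i = !s) :
    ∃ n : ℤ, E (g (r :: L) i) - E r = n * δ + D.M := by
  obtain ⟨n, hn⟩ := crv_latd h hC hM (colOK_upc h.cl s) (r := r) (by simp) (g (r :: L) i)
    (g_mem hi)
  rw [upc_g h.cl.nodup hi, upc_head, hp, if_neg (by cases s <;> decide)] at hn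
  exact ⟨n, hn⟩

theorem vplus_lat (h : Crv D true (r :: L) E) (hC : ∀ b j, ∃ n : ℤ, D.C b j = n * δ)
    (hM : 2 * D.M = k * δ) : ∃ n : ℤ, vplus.val true (r :: L) E - E r = n * δ := by
  obtain ⟨i, hi, hp, he⟩ := vplus_mem h
  rw [he]
  exact val_lat_same h hC hM hi hp

theorem vminus_lat (h : Crv D true (r :: L) E) (hC : ∀ b j, ∃ n : ℤ, D.C b j = n * δ)
    (hM : 2 * D.M = k * δ) : ∃ n : ℤ, vminus.val true (r :: L) E - E r = n * δ + D.M := by
  obtain ⟨i, hi, hp, he⟩ := vminus_mem h
  rw [he]
  exact val_lat_diff h hC hM hi hp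

end head

section data

open Vale.Agent.P040.H682

variable {h : ℕ} {P : OData h} {z : Fin (2 * h + 1)} {t r : ℝ} {L : List ℝ} {E : ℝ → ℝ}

theorem mu_lat (i : Fin (2 * h + 1)) (b : Bool) : ∃ n : ℤ, P.mu i b = n * (1 / 2 : ℝ) := by
  unfold OData.mu
  split_ifs
  · exact ⟨1, by norm_num⟩
  · exact ⟨2, by norm_num⟩
  · exact ⟨0, by norm_num⟩

theorem nin_lat (z : Fin (2 * h + 1)) (b : Bool) : ∃ n : ℤ, P.nin z b = n * (1 / 2 : ℝ) := by
  unfold OData.nin
  split_ifs
  · exact ⟨1, by norm_num⟩
  · exact ⟨0, by norm_num⟩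
  · exact ⟨1, by norm_num⟩
  · exact ⟨0, by norm_num⟩

theorem cum_lat (b : Bool) (j : ℕ) : ∃ n : ℤ, P.cum b j = n * (1 / 2 : ℝ) := by
  choose f hf using fun i => mu_lat (P := P) i b
  refine ⟨∑ i ∈ Finset.univ.filter (fun i => P.rk (P.pos i) < j), f i, ?_⟩
  unfold OData.cum
  rw [Finset.sum_congr rfl fun i _ => hf i, ← Finset.sum_mul]
  push_cast
  rfl

/-- the masses are half integers -/
theorem DC_lat (z : Fin (2 * h + 1)) (t : ℝ) (b : Bool) (j : ℕ) :
    ∃ n : ℤ, (P.DC z t).C b j = n * (1 / 2 : ℝ) := by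
  show ∃ n : ℤ, P.cc z b j = n * (1 / 2 : ℝ)
  unfold OData.cc
  split_ifs
  · exact cum_lat b _
  · obtain ⟨n, hn⟩ := cum_lat (P := P) b (P.rk (P.pos z))
    obtain ⟨m, hm⟩ := nin_lat (P := P) z b
    refine ⟨n + m, ?_⟩
    rw [hn, hm]
    push_cast
    ring
  · exact cum_lat b _

theorem DC_M (z : Fin (2 * h + 1)) (t : ℝ) :
    2 * (P.DC z t).M = ((2 * h + 1 : ℤ) : ℝ) * (1 / 2 : ℝ) := by
  show 2 * (((h : ℝ) + 1 / 2) / 2) = _
  push_cast
  ring

/-- **Integrality of `c₋`** -/
theorem vminus_DC (hC : Crv (P.DC z t) true (r :: L) E) :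
    ∃ n : ℤ, vminus.val true (r :: L) E - E r = n / 2 + ((h : ℝ) + 1 / 2) / 2 := by
  obtain ⟨n, hn⟩ := vminus_lat hC (DC_lat z t) (DC_M z t)
  refine ⟨n, ?_⟩
  rw [hn]
  show (n : ℝ) * (1 / 2) + ((h : ℝ) + 1 / 2) / 2 = _
  ring

/-- **Integrality of `c₊`** -/
theorem vplus_DC (hC : Crv (P.DC z t) true (r :: L) E) :
    ∃ n : ℤ, vplus.val true (r :: L) E - E r = (n : ℝ) / 2 := by
  obtain ⟨n, hn⟩ := vplus_lat hC (DC_lat z t) (DC_M z t)
  refine ⟨n, ?_⟩
  rw [hn]
  ring

end data

end Vale.Agent.P040.H709
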